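import Vale.Agent.P308.BI.Main
import Vale.Agent.P308.BI.Literal

/-! P308: on graphs of independence number at most `k` that have a perfect matching, the number
of near-perfect matchings is at most `n ^ (12 k + 4)` times the number of perfect matchings. -/

namespace Vale.Agent.Results.P308.BoundedIndependence

theorem result {V : Type*} [Fintype V] (G : SimpleGraph V) (k : ℕ) (hα : G.indepNum ≤ k)
    (hZ : ∃ M : G.Subgraph, M.IsPerfectMatching) :
    {M : G.Subgraph | M.IsMatching ∧ (M.verts)ᶜ.ncard = 2}.ncard ≤
      Fintype.card V ^ (12 * k + 4) * {M : G.Subgraph | M.IsPerfectMatching}.ncard := by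
  classical
  exact Vale.Agent.P308.BI.literal_of_main (Vale.Agent.P308.BI.main G k) hα hZ

end Vale.Agent.Results.P308.BoundedIndependence
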