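import Vale.Agent.Results.P308.ExpandersUniform
import Vale.Agent.Results.P308.BoundedIndependence

/-! P308: the Jerrum-Sinclair ratio (near-perfect matchings over perfect matchings) is polynomially
bounded (A) on all regular spectral expanders with second eigenvalue at most `d / 40`, and
(B) on all graphs of bounded independence number that have a perfect matching. -/

namespace Vale.Agent.Results.P308.AllClasses

open Matrix

theorem result.{u} :
    (∀ (V : Type u) [Fintype V] [DecidableEq V] (G : SimpleGraph V) [DecidableRel G.Adj]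
      (d : ℕ) (lam : ℝ), 0 < d → G.IsRegularOfDegree d → 0 ≤ lam →
      (∀ (μ : ℝ) (x : V → ℝ), x ≠ 0 → ∑ v, x v = 0 → G.adjMatrix ℝ *ᵥ x = μ • x → |μ| ≤ lam) →
      40 * lam ≤ d →
      {M : G.Subgraph | M.IsMatching ∧ (M.verts)ᶜ.ncard = 2}.ncard ≤
        Fintype.card V ^ 3 * {M : G.Subgraph | M.IsPerfectMatching}.ncard) ∧
    (∀ (V : Type u) [Fintype V] (G : SimpleGraph V) (k : ℕ), G.indepNum ≤ k →
      (∃ M : G.Subgraph, M.IsPerfectMatching) →
      {M : G.Subgraph | M.IsMatching ∧ (M.verts)ᶜ.ncard = 2}.ncard ≤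
        Fintype.card V ^ (12 * k + 4) * {M : G.Subgraph | M.IsPerfectMatching}.ncard) :=
  ⟨fun _ _ _ G _ d lam hd hreg hlam hspec hgap =>
      Vale.Agent.Results.P308.ExpandersUniform.result G d lam hd hreg hlam hspec hgap,
    fun _ _ G k hα hZ => Vale.Agent.Results.P308.BoundedIndependence.result G k hα hZ⟩

end Vale.Agent.Results.P308.AllClasses
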