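import Vale.Agent.P308.EX.Main
import Vale.Agent.P308.BI.Bridge

/-! P308: on regular spectral expanders (bipartite or not is irrelevant: the hypothesis bounds all
eigenvalues other than the trivial one in absolute value) the number of near-perfect matchings is
at most `N (2 d + 1) ^ (2 log_κ N)` times the number of perfect matchings. -/

namespace Vale.Agent.Results.P308.ExpanderGraphs

open Matrix

theorem result {V : Type*} [Fintype V] [DecidableEq V] (G : SimpleGraph V) [DecidableRel G.Adj]
    (d κ : ℕ) (lam : ℝ) (hd : 0 < d) (hreg : G.IsRegularOfDegree d) (hκ : 2 ≤ κ) (hlam : 0 ≤ lam)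
    (hspec : ∀ x : V → ℝ, ∑ v, x v = 0 →
      (G.adjMatrix ℝ *ᵥ x) ⬝ᵥ (G.adjMatrix ℝ *ᵥ x) ≤ lam ^ 2 * (x ⬝ᵥ x))
    (hgap : (6 * κ + 16) * lam ≤ d) :
    {M : G.Subgraph | M.IsMatching ∧ (M.verts)ᶜ.ncard = 2}.ncard ≤
      Fintype.card V * (2 * d + 1) ^ (2 * Nat.log κ (Fintype.card V)) *
        {M : G.Subgraph | M.IsPerfectMatching}.ncard := by
  have hs : Vale.Agent.P308.EX.SpecGap G lam := by
    intro x hx
    have := hspec x hx
    simp only [dotProduct, SimpleGraph.adjMatrix_mulVec_apply] at this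
    simpa [sq] using this
  rw [← Vale.Agent.P308.BI.numPerfect_eq, ← Vale.Agent.P308.BI.numNearPerfect_eq]
  exact Vale.Agent.P308.EX.main G d κ lam hd hreg hκ hlam hs hgap

end Vale.Agent.Results.P308.ExpanderGraphs
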