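import Vale.Agent.P308.EU.Main
import Vale.Agent.P308.EU.Dense
import Vale.Agent.P308.EU.Eigen
import Vale.Agent.P308.BI.Bridge

/-! P308: on every regular graph whose non-trivial adjacency eigenvalues are at most `d / 40` in
absolute value, the number of near-perfect matchings is at most `N ^ 3` times the number of
perfect matchings (a polynomial that does not depend on the degree). -/

namespace Vale.Agent.Results.P308.ExpandersUniform

open Matrix

theorem result {V : Type*} [Fintype V] [DecidableEq V] (G : SimpleGraph V) [DecidableRel G.Adj]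
    (d : ℕ) (lam : ℝ) (hd : 0 < d) (hreg : G.IsRegularOfDegree d) (hlam : 0 ≤ lam)
    (hspec : ∀ (μ : ℝ) (x : V → ℝ), x ≠ 0 → ∑ v, x v = 0 → G.adjMatrix ℝ *ᵥ x = μ • x → |μ| ≤ lam)
    (hgap : 40 * lam ≤ d) :
    {M : G.Subgraph | M.IsMatching ∧ (M.verts)ᶜ.ncard = 2}.ncard ≤
      Fintype.card V ^ 3 * {M : G.Subgraph | M.IsPerfectMatching}.ncard := by
  have hs : Vale.Agent.P308.EX.SpecGap G lam :=
    Vale.Agent.P308.EU.specGap_of_eigen hreg hlam hspec
  rw [← Vale.Agent.P308.BI.numPerfect_eq, ← Vale.Agent.P308.BI.numNearPerfect_eq]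
  rcases Nat.lt_or_ge d 150 with h | h
  · exact Vale.Agent.P308.EU.dense_main hreg
      (Vale.Agent.P308.EU.dense_of_small hd h hreg hlam hs hgap)
  · exact Vale.Agent.P308.EU.main G d lam h hreg hlam hs hgap

end Vale.Agent.Results.P308.ExpandersUniform
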