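import Vale.Agent.P308.FprasDelta
import Vale.Agent.P308.Shape

/-!
# P308: a fully polynomial randomized approximation scheme on Tutte's gadget graphs

`T(n,d)` is Tutte's gadget graph of the complete graph with degree demand `d`.  The estimator
`fprasMedian` is an explicit function of polynomially many independent uniform seeds, each seed
driving one step of the lazy switch chain.  With probability at least `1 - δ` it is within a factor
`1 ± ε` of the number of perfect matchings of `T(n,d)`, for every `d`; the number of seeds is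
polynomial in `n`, `1/ε` and `log (1/δ)`.
-/

namespace Vale.Agent.Results.P308.FprasDeltaGadgetGraphs

open Vale.Agent.P335 Vale.Agent.P308

theorem result : ∀ n : ℕ, 4 ≤ n → ∀ d : Fin n → ℕ, (∀ v, d v ≤ n - 1) →
    Fintype.card (Port n ⊕ Dummy d) = n * (n - 1) + ∑ v, (n - 1 - d v) ∧
    ((∃ a b c : Fin n, a ≠ b ∧ b ≠ c ∧ a ≠ c ∧ d a < n - 1 ∧ d b < n - 1 ∧ d c < n - 1) →
      ¬ (gadget d).Colorable 2) ∧
    ∀ ε δ : ℝ, 0 < ε → ε ≤ 1 → 0 < δ → ∀ s κ T r : ℕ,
      41472 * (n : ℝ) ^ 17 ≤ s * ε ^ 2 → 36 * (n : ℝ) ^ 6 ≤ ε * 2 ^ κ →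
      2 * n ^ 4 * (n ^ 2 + 2 * κ) ≤ T → 1 ≤ δ * 2 ^ (2 * r + 3) →
      1 - δ ≤ prob (Fin (2 * r + 1) → AlgSeed n T s) (fun ω =>
        (1 - ε) * (Fintype.card (PM (gadget d)) : ℝ) ≤ fprasMedian d T s r ω ∧
        fprasMedian d T s r ω ≤ (1 + ε) * (Fintype.card (PM (gadget d)) : ℝ)) := by
  intro n hn d hd
  refine ⟨card_vertices d, ?_, ?_⟩
  · rintro ⟨a, b, c, hab, hbc, hac, ha, hb, hc⟩
    exact not_bipartite a b c hab hbc hac ha hb hc
  · intro ε δ h0 h1 hδ s κ T r hs hκ hT hr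
    exact fpras_delta hn d hd ε h0 h1 δ hδ s κ T r hs hκ hT hr

end Vale.Agent.Results.P308.FprasDeltaGadgetGraphs
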