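import Vale.Agent.P308.IndepTwo

/-!
P308: the ratio (number of near-perfect matchings) / (number of perfect matchings) is at most
`3 n ^ 3` for every connected graph of independence number at most two, and for every graph with
the Ore-type condition `deg u + deg v ≥ n - 1` for non-adjacent `u ≠ v`.
-/

namespace Vale.Agent.Results.P308.IndependenceTwo

theorem result {V : Type*} [Fintype V] (G : SimpleGraph V) [DecidableRel G.Adj]
    (h : (G.Connected ∧ G.indepNum ≤ 2) ∨
      (∀ u v : V, u ≠ v → ¬ G.Adj u v → Fintype.card V ≤ G.degree u + G.degree v + 1)) :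
    {M : G.Subgraph | M.IsMatching ∧ (M.vertsᶜ).ncard = 2}.ncard
      ≤ 3 * Fintype.card V ^ 3 * {M : G.Subgraph | M.IsPerfectMatching}.ncard := by
  classical
  rcases h with ⟨h1, h2⟩ | h
  · exact Vale.Agent.P308.IndepTwo.main h1 h2
  · exact Vale.Agent.P308.IndepTwo.main_ore h

end Vale.Agent.Results.P308.IndependenceTwo
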