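import Vale.Agent.P308.Sampler
import Vale.Agent.P308.Shape

/-!
# P308: almost uniform sampling of the perfect matchings of Tutte's gadget graphs `T(n,d)`

`T(n,d)` has a port `(v,u)` for every ordered pair of distinct `v, u < n` and dummies `(v,k)`,
`k < n - 1 - d v`; the port `(v,u)` is joined to the port `(u,v)` and to all dummies of `v`.
Its perfect matchings (edge sets covering every vertex exactly once) project onto the graphs with
degree vector `d`, every fibre having `∏ (n - 1 - d v)!` elements.  Running the switch chain and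
then choosing a uniformly random perfect matching in the fibre samples the perfect matchings of
`T(n,d)` almost uniformly in polynomially many steps, for every `d`.
-/

namespace Vale.Agent.Results.P308.TutteGadgetGraphs

open Vale.Agent.P335 Vale.Agent.P308

theorem result : ∀ n : ℕ, 4 ≤ n → ∀ d : Fin n → ℕ, (∀ v, d v ≤ n - 1) →
    Fintype.card (Port n ⊕ Dummy d) = n * (n - 1) + ∑ v, (n - 1 - d v) ∧
    ((∃ a b c : Fin n, a ≠ b ∧ b ≠ c ∧ a ≠ c ∧ d a < n - 1 ∧ d b < n - 1 ∧ d c < n - 1) →
      ¬ (gadget d).Colorable 2) ∧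
    (∀ M : PM (gadget d), ∃ G : Omega d, factorOf M.1 = G.1) ∧
    (∀ G : Omega d, (fibre d G.1).card = ∏ v, (n - 1 - d v).factorial) ∧
    Fintype.card (PM (gadget d)) = Fintype.card (Omega d) * ∏ v, (n - 1 - d v).factorial ∧
    (∀ G0 : Omega d, tvPM d (2 * n ^ 6) G0 ≤ 1 / 4) ∧
    (∀ (G0 : Omega d) (k t : ℕ), 2 * n ^ 4 * (n ^ 2 + 2 * k) ≤ t →
      tvPM d t G0 ≤ 1 / 2 ^ (k + 1)) := by
  intro n hn d hd
  refine ⟨card_vertices d, ?_, fun M => ⟨proj hd M, rfl⟩, card_fibre, card_PM hd, ?_, ?_⟩
  · rintro ⟨a, b, c, hab, hbc, hac, ha, hb, hc⟩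
    exact not_bipartite a b c hab hbc hac ha hb hc
  · intro G0
    rw [tvPM_eq hd]
    exact (g_main n hn d).1 G0
  · intro G0 k t ht
    rw [tvPM_eq hd]
    exact tvDist_le_pow hn d G0 k t ht

end Vale.Agent.Results.P308.TutteGadgetGraphs
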